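import Vale.Agent.N068B.Main

open Matroid Vale.Agent.N068B

namespace Vale.Agent.Results.P068.A0Connected

theorem result :
    (∀ (α : Type*) [Infinite α] (k : ℕ),
      (∃ M : Bool → Matroid α, (∀ i, (M i).E = Set.univ ∧ Tight (M i) k) ∧
        ¬ HasPartition Set.univ M) ∧
      (∃ M N : Matroid α, M.E = Set.univ ∧ N.E = Set.univ ∧ Tight M k ∧ Tight N k ∧
        ¬ Intersection M N)) ∧
    (∀ (α : Type*) (M N : Matroid α), M.E = N.E →
      (Intersection M N ↔ ∃ (J : Set α) (c : ℕ), M.Indep J ∧ N.Indep J ∧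
        ∀ I, M.Indep I → N.Indep I → (I \ J).encard ≤ (J \ I).encard + c) ∧
      (∀ (M' N' : Matroid α) (a b : ℕ), M'.E = N'.E → Near a M M' → Near b N N' →
        (Intersection M N ↔ Intersection M' N')) ∧
      (∀ C D C' D' : Set α, (C ∪ D).Finite → C ∪ D = C' ∪ D' →
        (Intersection M N ↔ Intersection (M ／ C ＼ D) (N ／ C' ＼ D'))) ∧
      (∀ B F : Set α, M.IsBase B → F.Finite → N.Indep (B \ F) → Intersection M N)) :=
  ⟨fun α _ k => ⟨exists_tight_family α k, exists_tight_pair α k⟩,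
    fun α M N hE => ⟨inter_iff_excess hE, fun M' N' a b hE' h1 h2 =>
      ⟨fun h => h.near h1 h2 hE', fun h => h.near h1.symm h2.symm hE⟩,
      fun C D C' D' => inter_minor hE, fun B F => inter_of_base hE⟩⟩

end Vale.Agent.Results.P068.A0Connected
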