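import Vale.Agent.N068.Part

open Vale.Agent.N068

namespace Vale.Agent.Results.P068.A0NoPackNoCover

/-- A uniform matroid on `ℕ` with packings and coverings by bases but no partition into finitely
many bases. -/
theorem result :
    ∃ U : Matroid ℕ, U.E = Set.univ ∧ (∀ X, U.Indep X ∨ U.Spanning X) ∧
      (∃ D : ℕ → Set ℕ, (∀ i, U.IsBase (D i)) ∧ ∀ i j, i ≠ j → Disjoint (D i) (D j)) ∧
      (∃ B B', U.IsBase B ∧ U.IsBase B' ∧ B ∪ B' = Set.univ) ∧
      ∀ (k : ℕ) (B : Fin k → Set ℕ), (∀ i, U.IsBase (B i)) →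
        (∀ i j, i ≠ j → Disjoint (B i) (B j)) → ⋃ i, B i ≠ Set.univ :=
  exists_noPartition

end Vale.Agent.Results.P068.A0NoPackNoCover
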